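import Mathlib

/-!
# Radial sweeps: analytic preliminaries

Generic lemmas used for the radial-sweep covering statement (S0328):
* comparison of a tagged Riemann-type sum with an integral, cell by cell;
* the fundamental theorem of calculus for a curve `w` with `w' = lam • (a + t • b)`.
-/

open MeasureTheory Set

namespace Crest.Agent.Helper26.Sweep

/-- Additivity of the interval integral over a partition indexed by `Fin (N + 1)`. -/
theorem sum_integral_partition (N : ℕ) (t : Fin (N + 1) → ℝ) (g : ℝ → ℝ)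
    (hg : ∀ i : Fin N, IntervalIntegrable g volume (t i.castSucc) (t i.succ)) :
    ∑ i : Fin N, ∫ τ in (t i.castSucc)..(t i.succ), g τ
      = ∫ τ in (t 0)..(t (Fin.last N)), g τ := by
  let a : ℕ → ℝ := fun k => t ⟨min k N, by omega⟩
  have ha1 : ∀ i : Fin N, a (i : ℕ) = t i.castSucc := by
    intro i
    show t ⟨min (i : ℕ) N, _⟩ = t i.castSucc
    congr 1
    apply Fin.ext
    simp [Nat.min_eq_left i.isLt.le]
  have ha2 : ∀ i : Fin N, a ((i : ℕ) + 1) = t i.succ := by
    intro i
    show t ⟨min ((i : ℕ) + 1) N, _⟩ = t i.succ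
    congr 1
    apply Fin.ext
    simp [Nat.min_eq_left (Nat.succ_le_of_lt i.isLt)]
  have ha0 : a 0 = t 0 := by
    show t ⟨min 0 N, _⟩ = t 0
    congr 1
  have haN : a N = t (Fin.last N) := by
    show t ⟨min N N, _⟩ = t (Fin.last N)
    congr 1
    apply Fin.ext
    simp
  have h := intervalIntegral.sum_integral_adjacent_intervals (f := g) (μ := volume) (a := a)
    (n := N) (by
      intro k hk
      have := hg ⟨k, hk⟩
      rw [← ha1 ⟨k, hk⟩, ← ha2 ⟨k, hk⟩] at this
      exact this)
  rw [Finset.sum_range, ha0, haN] at h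
  rw [← h]
  refine Finset.sum_congr rfl fun i _ => ?_
  rw [ha1, ha2]

/-- Telescoping sum of the cell lengths of a partition. -/
theorem sum_cell_length (N : ℕ) (t : Fin (N + 1) → ℝ) :
    ∑ i : Fin N, (t i.succ - t i.castSucc) = t (Fin.last N) - t 0 := by
  have h := sum_integral_partition N t (fun _ => (1 : ℝ)) (fun i => intervalIntegrable_const)
  simpa using h

/-- Cell-by-cell comparison of a Riemann-type sum with the integral. -/
theorem sum_sub_integral_le (N : ℕ) (t : Fin (N + 1) → ℝ) (ht : StrictMono t) (g : ℝ → ℝ)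
    (hg : ContinuousOn g (Icc (t 0) (t (Fin.last N)))) (G : Fin N → ℝ) (ε : ℝ)
    (hG : ∀ i : Fin N, ∀ τ ∈ Icc (t i.castSucc) (t i.succ), |G i - g τ| ≤ ε) :
    |∑ i : Fin N, G i * (t i.succ - t i.castSucc) - ∫ τ in (t 0)..(t (Fin.last N)), g τ|
      ≤ ε * (t (Fin.last N) - t 0) := by
  have hle : ∀ i : Fin N, t i.castSucc ≤ t i.succ := fun i =>
    (ht (Fin.castSucc_lt_succ (i := i))).le
  have hsub : ∀ i : Fin N, Icc (t i.castSucc) (t i.succ) ⊆ Icc (t 0) (t (Fin.last N)) := by
    intro i
    exact Icc_subset_Icc (ht.monotone (Fin.zero_le _)) (ht.monotone (Fin.le_last _))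
  have hint : ∀ i : Fin N, IntervalIntegrable g volume (t i.castSucc) (t i.succ) := by
    intro i
    apply ContinuousOn.intervalIntegrable
    rw [uIcc_of_le (hle i)]
    exact hg.mono (hsub i)
  rw [← sum_integral_partition N t g hint, ← Finset.sum_sub_distrib]
  have hcell : ∀ i : Fin N,
      |G i * (t i.succ - t i.castSucc) - ∫ τ in (t i.castSucc)..(t i.succ), g τ|
        ≤ ε * (t i.succ - t i.castSucc) := by
    intro i
    have h1 : G i * (t i.succ - t i.castSucc) - ∫ τ in (t i.castSucc)..(t i.succ), g τ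
        = ∫ τ in (t i.castSucc)..(t i.succ), (G i - g τ) := by
      rw [intervalIntegral.integral_sub intervalIntegrable_const (hint i)]
      simp [mul_comm]
    rw [h1]
    have h2 := intervalIntegral.norm_integral_le_of_norm_le_const
      (a := t i.castSucc) (b := t i.succ) (C := ε) (f := fun τ => G i - g τ) (by
        intro τ hτ
        rw [uIoc_of_le (hle i)] at hτ
        exact hG i τ (Ioc_subset_Icc_self hτ))
    rw [Real.norm_eq_abs, abs_of_nonneg (sub_nonneg.2 (hle i))] at h2
    exact h2
  calc |∑ i : Fin N, (G i * (t i.succ - t i.castSucc) - ∫ τ in (t i.castSucc)..(t i.succ), g τ)|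
      ≤ ∑ i : Fin N, |G i * (t i.succ - t i.castSucc) - ∫ τ in (t i.castSucc)..(t i.succ), g τ| :=
        Finset.abs_sum_le_sum_abs _ _
    _ ≤ ∑ i : Fin N, ε * (t i.succ - t i.castSucc) := Finset.sum_le_sum fun i _ => hcell i
    _ = ε * (t (Fin.last N) - t 0) := by rw [← Finset.mul_sum, sum_cell_length]

end Crest.Agent.Helper26.Sweep
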