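import Mathlib

/-!
# Radial sweeps: the fundamental theorem of calculus for the tilt curve

For a curve `w` with `w' t = lam t • (a + t • b)` on `[α, β]` (one-sided derivatives at the
end points), the increment `w τ - w c` over a sub-interval `[t₁, t₂]` is a combination
`A • (a + t₁ • b) + B • (a + t₂ • b)` with `|A| + |B| ≤ Λ * (t₂ - t₁)`, where `Λ` bounds `|lam|`.
-/

open MeasureTheory Set

namespace Crest.Agent.Helper26.Sweep

/-- A continuous function on a compact interval is bounded by a positive constant. -/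
theorem exists_lam_bound (lam : ℝ → ℝ) (α β : ℝ) (hlam : ContinuousOn lam (Icc α β)) :
    ∃ Λ : ℝ, 0 < Λ ∧ ∀ t ∈ Icc α β, |lam t| ≤ Λ := by
  obtain ⟨C, hC⟩ := isCompact_Icc.exists_bound_of_continuousOn hlam
  refine ⟨max C 1, lt_of_lt_of_le one_pos (le_max_right _ _), fun t ht => ?_⟩
  exact le_trans (by simpa using hC t ht) (le_max_left _ _)

section FTC

variable {E : Type*} [NormedAddCommGroup E] [NormedSpace ℝ E]

/-- Continuity of the tilt curve on `[α, β]`. -/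
theorem continuousOn_of_hasDerivWithinAt (a b : E) (α β : ℝ) (w : ℝ → E) (lam : ℝ → ℝ)
    (hw' : ∀ t ∈ Icc α β, HasDerivWithinAt w (lam t • (a + t • b)) (Icc α β) t) :
    ContinuousOn w (Icc α β) :=
  fun t ht => (hw' t ht).continuousWithinAt

/-- The velocity field `σ ↦ lam σ • (a + σ • b)` is continuous on `[α, β]`. -/
theorem continuousOn_velocity (a b : E) (α β : ℝ) (lam : ℝ → ℝ)
    (hlam : ContinuousOn lam (Icc α β)) :
    ContinuousOn (fun σ : ℝ => lam σ • (a + σ • b)) (Icc α β) := by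
  apply ContinuousOn.smul hlam
  exact (continuous_const.add (continuous_id.smul continuous_const)).continuousOn

variable [CompleteSpace E]

/-- FTC, ordered case. -/
theorem sub_eq_integral_of_le (a b : E) (α β : ℝ) (w : ℝ → E) (lam : ℝ → ℝ)
    (hlam : ContinuousOn lam (Icc α β))
    (hw' : ∀ t ∈ Icc α β, HasDerivWithinAt w (lam t • (a + t • b)) (Icc α β) t)
    (c τ : ℝ) (hc : α ≤ c) (hcτ : c ≤ τ) (hτ : τ ≤ β) :
    w τ - w c = ∫ σ in c..τ, lam σ • (a + σ • b) := by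
  have hsub : Icc c τ ⊆ Icc α β := Icc_subset_Icc hc hτ
  symm
  apply intervalIntegral.integral_eq_sub_of_hasDeriv_right_of_le hcτ
  · exact (continuousOn_of_hasDerivWithinAt a b α β w lam hw').mono hsub
  · intro x hx
    have hx' : x ∈ Icc α β := hsub (Ioo_subset_Icc_self hx)
    have hnhds : Icc α β ∈ nhds x :=
      Icc_mem_nhds (lt_of_le_of_lt hc hx.1) (lt_of_lt_of_le hx.2 hτ)
    exact ((hw' x hx').hasDerivAt hnhds).hasDerivWithinAt
  · apply ContinuousOn.intervalIntegrable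
    rw [uIcc_of_le hcτ]
    exact (continuousOn_velocity a b α β lam hlam).mono hsub

/-- FTC for the tilt curve: `w τ - w c = ∫_c^τ lam σ • (a + σ • b)`. -/
theorem sub_eq_integral (a b : E) (α β : ℝ) (w : ℝ → E) (lam : ℝ → ℝ)
    (hlam : ContinuousOn lam (Icc α β))
    (hw' : ∀ t ∈ Icc α β, HasDerivWithinAt w (lam t • (a + t • b)) (Icc α β) t)
    (c τ : ℝ) (hc : c ∈ Icc α β) (hτ : τ ∈ Icc α β) :
    w τ - w c = ∫ σ in c..τ, lam σ • (a + σ • b) := by
  rcases le_total c τ with h | h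
  · exact sub_eq_integral_of_le a b α β w lam hlam hw' c τ hc.1 h hτ.2
  · rw [intervalIntegral.integral_symm,
      ← sub_eq_integral_of_le a b α β w lam hlam hw' τ c hτ.1 h hc.2]
    abel

end FTC

/-- The two barycentric weights of the increment, ordered case. -/
theorem abs_integral_add_abs_integral_le {lam : ℝ → ℝ} {t₁ t₂ Λ c τ : ℝ} (h₁₂ : t₁ < t₂)
    (hlam : ContinuousOn lam (Icc t₁ t₂)) (hΛ : ∀ t ∈ Icc t₁ t₂, |lam t| ≤ Λ)
    (hc : t₁ ≤ c) (hcτ : c ≤ τ) (hτ : τ ≤ t₂) :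
    |∫ σ in c..τ, lam σ * ((t₂ - σ) / (t₂ - t₁))|
      + |∫ σ in c..τ, lam σ * ((σ - t₁) / (t₂ - t₁))| ≤ Λ * (τ - c) := by
  have hΔ : 0 < t₂ - t₁ := sub_pos.2 h₁₂
  have hsub : Icc c τ ⊆ Icc t₁ t₂ := Icc_subset_Icc hc hτ
  have hc1 : ContinuousOn (fun σ : ℝ => lam σ * ((t₂ - σ) / (t₂ - t₁))) (Icc c τ) :=
    (hlam.mono hsub).mul
      (((continuous_const.sub continuous_id).div_const _).continuousOn)
  have hc2 : ContinuousOn (fun σ : ℝ => lam σ * ((σ - t₁) / (t₂ - t₁))) (Icc c τ) :=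
    (hlam.mono hsub).mul
      (((continuous_id.sub continuous_const).div_const _).continuousOn)
  have hi1 : IntervalIntegrable (fun σ : ℝ => |lam σ * ((t₂ - σ) / (t₂ - t₁))|) volume c τ := by
    apply ContinuousOn.intervalIntegrable
    rw [uIcc_of_le hcτ]
    exact hc1.abs
  have hi2 : IntervalIntegrable (fun σ : ℝ => |lam σ * ((σ - t₁) / (t₂ - t₁))|) volume c τ := by
    apply ContinuousOn.intervalIntegrable
    rw [uIcc_of_le hcτ]
    exact hc2.abs
  calc |∫ σ in c..τ, lam σ * ((t₂ - σ) / (t₂ - t₁))|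
        + |∫ σ in c..τ, lam σ * ((σ - t₁) / (t₂ - t₁))|
      ≤ (∫ σ in c..τ, |lam σ * ((t₂ - σ) / (t₂ - t₁))|)
        + ∫ σ in c..τ, |lam σ * ((σ - t₁) / (t₂ - t₁))| :=
        add_le_add (intervalIntegral.abs_integral_le_integral_abs hcτ)
          (intervalIntegral.abs_integral_le_integral_abs hcτ)
    _ = ∫ σ in c..τ, (|lam σ * ((t₂ - σ) / (t₂ - t₁))| + |lam σ * ((σ - t₁) / (t₂ - t₁))|) :=
        (intervalIntegral.integral_add hi1 hi2).symm
    _ ≤ ∫ _σ in c..τ, Λ := by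
        apply intervalIntegral.integral_mono_on hcτ (hi1.add hi2) intervalIntegrable_const
        intro σ hσ
        have hσ' := hsub hσ
        have h1 : 0 ≤ (t₂ - σ) / (t₂ - t₁) := div_nonneg (sub_nonneg.2 hσ'.2) hΔ.le
        have h2 : 0 ≤ (σ - t₁) / (t₂ - t₁) := div_nonneg (sub_nonneg.2 hσ'.1) hΔ.le
        have h3 : (t₂ - σ) / (t₂ - t₁) + (σ - t₁) / (t₂ - t₁) = 1 := by
          field_simp
          ring
        rw [abs_mul, abs_mul, abs_of_nonneg h1, abs_of_nonneg h2, ← mul_add, h3, mul_one]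
        exact hΛ σ hσ'
    _ = Λ * (τ - c) := by
        rw [intervalIntegral.integral_const, smul_eq_mul, mul_comm]

/-- **FTC / cone lemma** for the tilt curve: on a sub-interval `[t₁, t₂]` of `[α, β]` the
increment `w τ - w c` lies in the cone spanned by `±(a + t₁ • b)`, `±(a + t₂ • b)` with total
weight at most `Λ * (t₂ - t₁)`. -/
theorem W1_ftc {E : Type*} [NormedAddCommGroup E] [NormedSpace ℝ E] [CompleteSpace E]
    (a b : E) (α β : ℝ) (w : ℝ → E) (lam : ℝ → ℝ)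
    (hlam : ContinuousOn lam (Set.Icc α β))
    (hw' : ∀ t ∈ Set.Icc α β, HasDerivWithinAt w (lam t • (a + t • b)) (Set.Icc α β) t)
    (Λ : ℝ) (hΛ : ∀ t ∈ Set.Icc α β, |lam t| ≤ Λ) (t₁ t₂ : ℝ) (h₁ : α ≤ t₁) (h₁₂ : t₁ < t₂)
    (h₂ : t₂ ≤ β) (c τ : ℝ) (hc : c ∈ Set.Icc t₁ t₂) (hτ : τ ∈ Set.Icc t₁ t₂) :
    ∃ A B : ℝ, w τ - w c = A • (a + t₁ • b) + B • (a + t₂ • b) ∧ |A| + |B| ≤ Λ * (t₂ - t₁) := by
  have hΔ : 0 < t₂ - t₁ := sub_pos.2 h₁₂
  have hsub : Icc t₁ t₂ ⊆ Icc α β := Icc_subset_Icc h₁ h₂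
  have hlam' : ContinuousOn lam (Icc t₁ t₂) := hlam.mono hsub
  have hΛ' : ∀ t ∈ Icc t₁ t₂, |lam t| ≤ Λ := fun t ht => hΛ t (hsub ht)
  have hΛ0 : 0 ≤ Λ := le_trans (abs_nonneg _) (hΛ' c hc)
  have hcτ : uIcc c τ ⊆ Icc t₁ t₂ := by
    intro x hx
    rcases le_total c τ with h | h
    · rw [uIcc_of_le h] at hx
      exact ⟨hc.1.trans hx.1, hx.2.trans hτ.2⟩
    · rw [uIcc_of_ge h] at hx
      exact ⟨hτ.1.trans hx.1, hx.2.trans hc.2⟩
  have hk1 : ContinuousOn (fun σ : ℝ => lam σ * ((t₂ - σ) / (t₂ - t₁))) (uIcc c τ) :=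
    (hlam'.mono hcτ).mul (((continuous_const.sub continuous_id).div_const _).continuousOn)
  have hk2 : ContinuousOn (fun σ : ℝ => lam σ * ((σ - t₁) / (t₂ - t₁))) (uIcc c τ) :=
    (hlam'.mono hcτ).mul (((continuous_id.sub continuous_const).div_const _).continuousOn)
  have hi1 : IntervalIntegrable
      (fun σ : ℝ => (lam σ * ((t₂ - σ) / (t₂ - t₁))) • (a + t₁ • b)) volume c τ :=
    (hk1.smul continuousOn_const).intervalIntegrable
  have hi2 : IntervalIntegrable
      (fun σ : ℝ => (lam σ * ((σ - t₁) / (t₂ - t₁))) • (a + t₂ • b)) volume c τ :=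
    (hk2.smul continuousOn_const).intervalIntegrable
  refine ⟨∫ σ in c..τ, lam σ * ((t₂ - σ) / (t₂ - t₁)),
    ∫ σ in c..τ, lam σ * ((σ - t₁) / (t₂ - t₁)), ?_, ?_⟩
  · rw [sub_eq_integral a b α β w lam hlam hw' c τ (hsub hc) (hsub hτ)]
    rw [← intervalIntegral.integral_smul_const, ← intervalIntegral.integral_smul_const,
      ← intervalIntegral.integral_add hi1 hi2]
    apply intervalIntegral.integral_congr
    intro σ _
    show lam σ • (a + σ • b) = (lam σ * ((t₂ - σ) / (t₂ - t₁))) • (a + t₁ • b)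
      + (lam σ * ((σ - t₁) / (t₂ - t₁))) • (a + t₂ • b)
    have e1 : lam σ * ((t₂ - σ) / (t₂ - t₁)) + lam σ * ((σ - t₁) / (t₂ - t₁)) = lam σ := by
      field_simp
      ring
    have e2 : lam σ * ((t₂ - σ) / (t₂ - t₁)) * t₁ + lam σ * ((σ - t₁) / (t₂ - t₁)) * t₂
        = lam σ * σ := by
      field_simp
      ring
    rw [smul_add, smul_add, smul_add, smul_smul, smul_smul, smul_smul, ← e2]
    nth_rewrite 1 [← e1]
    rw [add_smul, add_smul]
    abel
  · rcases le_total c τ with h | h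
    · calc _ ≤ Λ * (τ - c) := abs_integral_add_abs_integral_le h₁₂ hlam' hΛ' hc.1 h hτ.2
        _ ≤ Λ * (t₂ - t₁) := by
          apply mul_le_mul_of_nonneg_left _ hΛ0
          linarith [hc.1, hτ.2]
    · rw [intervalIntegral.integral_symm τ c,
        intervalIntegral.integral_symm τ c (f := fun σ => lam σ * ((σ - t₁) / (t₂ - t₁))),
        abs_neg, abs_neg]
      calc _ ≤ Λ * (c - τ) := abs_integral_add_abs_integral_le h₁₂ hlam' hΛ' hτ.1 h hc.2
        _ ≤ Λ * (t₂ - t₁) := by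
          apply mul_le_mul_of_nonneg_left _ hΛ0
          linarith [hτ.1, hc.2]

end Crest.Agent.Helper26.Sweep
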